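import Vale.Agent.P047.Main

namespace Vale.Agent.Results.P047.SqrtFalse
open Finset

/-- A bit read as a sign: points of the cube `{-1,1}^n` are encoded as `Fin n → Bool`. -/
noncomputable def sign (b : Bool) : ℝ := if b then 1 else -1

/-- The Fourier coefficient `E[f(X) ∏_{i ∈ T} X_i]` for `X` uniform on the cube. -/
noncomputable def coeff {n : ℕ} (f : (Fin n → Bool) → ℝ) (T : Finset (Fin n)) : ℝ :=
  (∑ x : Fin n → Bool, f x * ∏ i ∈ T, sign (x i)) / 2 ^ n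

open Classical in
/-- The degree: the largest size of a set with nonzero Fourier coefficient. -/
noncomputable def degree {n : ℕ} (f : (Fin n → Bool) → ℝ) : ℕ :=
  (Finset.univ.filter (fun T : Finset (Fin n) => coeff f T ≠ 0)).sup Finset.card

/-- `f` takes values in `{-1,1}`. -/
def IsBoolean {n : ℕ} (f : (Fin n → Bool) → ℝ) : Prop := ∀ x, f x = 1 ∨ f x = -1

theorem result :
    (∀ C : ℝ, ∃ n : ℕ, 1 ≤ n ∧ ∃ f : (Fin n → Bool) → ℝ, IsBoolean f ∧
      C * Real.sqrt (degree f) < ∑ i, coeff f {i}) ∧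
    (∃ α c : ℝ, 1 / 2 < α ∧ 0 < c ∧ ∀ d : ℕ, 1 ≤ d →
      ∃ n : ℕ, 1 ≤ n ∧ ∃ f : (Fin n → Bool) → ℝ, IsBoolean f ∧ degree f ≤ d ∧
        c * (d : ℝ) ^ α ≤ ∑ i, coeff f {i}) := by
  have main : ∃ α c : ℝ, 1 / 2 < α ∧ 0 < c ∧ ∀ d : ℕ, 1 ≤ d →
      ∃ n : ℕ, 1 ≤ n ∧ ∃ f : (Fin n → Bool) → ℝ, IsBoolean f ∧ degree f ≤ d ∧
        c * (d : ℝ) ^ α ≤ ∑ i, coeff f {i} := by
    obtain ⟨α, c, hα, hc, h⟩ := Vale.Agent.P047.power_law
    refine ⟨α, c, hα, hc, fun d hd => ?_⟩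
    obtain ⟨n, f, h1, h2⟩ := h d hd
    have hco : ∀ T : Finset (Fin n), coeff (fun x => Vale.Agent.P047.sg (f x)) T
        = Vale.Agent.P047.avg
          (fun x => Vale.Agent.P047.sg (f x) * ∏ i ∈ T, Vale.Agent.P047.sg (x i)) := by
      intro T
      simp [coeff, Vale.Agent.P047.avg, sign, Vale.Agent.P047.sg]
    have hsum : ∑ i, coeff (fun x => Vale.Agent.P047.sg (f x)) {i}
        = Vale.Agent.P047.avg (fun x => Vale.Agent.P047.S x * Vale.Agent.P047.sg (f x)) := by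
      simp only [hco, prod_singleton]
      rw [← Vale.Agent.P047.avg_sum]
      refine Vale.Agent.P047.avg_congr fun x => ?_
      rw [← mul_sum, mul_comm]
      rfl
    have hpos : 0 < c * (d : ℝ) ^ α := mul_pos hc (Real.rpow_pos_of_pos (by exact_mod_cast hd) α)
    refine ⟨n, ?_, fun x => Vale.Agent.P047.sg (f x), fun x => ?_, ?_, hsum ▸ h2⟩
    · rcases Nat.eq_zero_or_pos n with rfl | hn
      · rw [← hsum] at h2
        simp only [univ_eq_empty, sum_empty] at h2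
        linarith
      · exact hn
    · cases hx : f x <;> simp [Vale.Agent.P047.sg, hx]
    · refine Finset.sup_le fun T hT => ?_
      by_contra hlt
      exact (mem_filter.1 hT).2 ((hco T).trans (h1.fourier T (not_le.1 hlt)))
  refine ⟨fun C => ?_, main⟩
  obtain ⟨α, c, hα, hc, h⟩ := main
  have ht := (tendsto_rpow_atTop (show 0 < α - 1 / 2 by linarith)).comp
    tendsto_natCast_atTop_atTop
  obtain ⟨d, hd, hd1⟩ := ((ht.eventually_gt_atTop (|C| / c)).and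
    (Filter.eventually_ge_atTop 1)).exists
  obtain ⟨n, hn, f, hf, hdeg, hle⟩ := h d hd1
  refine ⟨n, hn, f, hf, lt_of_lt_of_le ?_ hle⟩
  have hd0 : (0 : ℝ) < d := by exact_mod_cast hd1
  have h1 : Real.sqrt (degree f) ≤ Real.sqrt d := Real.sqrt_le_sqrt (by exact_mod_cast hdeg)
  have h2 : (d : ℝ) ^ α = (d : ℝ) ^ (α - 1 / 2) * Real.sqrt d := by
    rw [Real.sqrt_eq_rpow, ← Real.rpow_add hd0]
    congr 1
    ring
  have h3 : |C| < (d : ℝ) ^ (α - 1 / 2) * c := (div_lt_iff₀ hc).1 hd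
  have h4 : 0 < Real.sqrt d := Real.sqrt_pos.2 hd0
  calc C * Real.sqrt (degree f) ≤ |C| * Real.sqrt (degree f) :=
        mul_le_mul_of_nonneg_right (le_abs_self C) (Real.sqrt_nonneg _)
    _ ≤ |C| * Real.sqrt d := mul_le_mul_of_nonneg_left h1 (abs_nonneg C)
    _ < (d : ℝ) ^ (α - 1 / 2) * c * Real.sqrt d := mul_lt_mul_of_pos_right h3 h4
    _ = c * (d : ℝ) ^ α := by rw [h2]; ring

end Vale.Agent.Results.P047.SqrtFalse
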